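import Mathlib
import Vale.Agent.P319.Ev.IA3
import Vale.Agent.P319.Ev.Spec
import Vale.Agent.P319.SC.Defs

/-! P319, block SC, number theory (QL2): primes `l ≡ 1` modulo `r` below
`exp (C (log r)^2 / log log r)`; statements of the packages. -/

set_option linter.all false

namespace Vale.Agent.P319.SC.QL

open Vale.Agent.P319.Ev Vale.Agent.P319.Ev.IA DirichletCharacter

/-- `1 + log (1 + log r)` -/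
noncomputable def lam (r : ℕ) : ℝ := 1 + Real.log (LL r)

/-- **QL2-D**: few characters have a zero near `1` -/
def DenStmt : Prop := ∀ A : ℝ, 0 < A → ∃ (B : ℝ) (r₀ : ℕ), ∀ (r : ℕ) [NeZero r], r.Prime → r₀ ≤ r →
  ∀ S : Finset (DirichletCharacter ℂ r),
    (∀ χ ∈ S, χ ≠ 1 ∧ ∃ ρ : ℂ, ‖ρ - 1‖ < A * lam r / LL r ∧ LFunction χ ρ = 0) →
      (S.card : ℝ) ≤ LL r ^ B

/-- **QL2-R**: repulsion: if a real character has a zero extremely close to `1`, there are no other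
zeros near `1` -/
def RepStmt : Prop := ∀ A c κ : ℝ, 0 < A → 0 < c → 0 < κ → ∃ r₀ : ℕ, ∀ (r : ℕ) [NeZero r],
  r.Prime → r₀ ≤ r → ∀ χ₁ : DirichletCharacter ℂ r, χ₁ ≠ 1 → χ₁ ^ 2 = 1 → ∀ β : ℂ, LFunction χ₁ β = 0 →
    ‖β - 1‖ ≤ Real.exp (-(c * LL r / lam r ^ 2)) →
    ∀ χ : DirichletCharacter ℂ r, χ ≠ 1 → ∀ ρ : ℂ, ‖ρ - 1‖ < A * lam r / LL r →
      LFunction χ ρ = 0 → χ = χ₁ ∧ ‖ρ - 1‖ < κ / LL r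

/-- **QL2-B**, no zero in the disc of radius `ρ` (compare `bound_no_zero` in Ev/IA.lean) -/
def BndStmt : Prop := ∃ C : ℝ, 1 ≤ C ∧ ∀ (r : ℕ) [NeZero r] (χ : DirichletCharacter ℂ r), χ ≠ 1 →
  ∀ d ρ : ℝ, 0 < d → d ≤ 1 / 8 → 0 < ρ → ρ ≤ 2 * d →
    (∀ a : ℂ, ‖a - 1‖ < ρ → LFunction χ a ≠ 0) → ∀ k : ℕ,
      ‖Schi χ k d‖ ≤ C * LL r * (k + 1) ^ 2 / Real.sqrt (d ^ 2 + ρ ^ 2) ^ (k + 1)

/-- **QL2-B**, one zero in the disc of radius `ρ` (compare `bound_one_zero` in Ev/IA.lean) -/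
def BndOneStmt : Prop := ∃ C : ℝ, 1 ≤ C ∧ ∀ (r : ℕ) [NeZero r] (χ : DirichletCharacter ℂ r), χ ≠ 1 →
  ∀ d ρ : ℝ, 0 < d → d ≤ 1 / 16 → 0 < ρ → ρ ≤ 2 * d → ∀ a : ℂ, ‖a - 1‖ < ρ →
    LFunction χ a = 0 → (∀ b : ℂ, ‖b - 1‖ < ρ → dslope (LFunction χ) a b ≠ 0) → ∀ k : ℕ,
      ‖Schi χ k d‖ ≤ (‖((1 + d : ℝ) : ℂ) - a‖ ^ (k + 1))⁻¹ +
        C * LL r * (k + 1) ^ 2 / Real.sqrt (d ^ 2 + ρ ^ 2) ^ (k + 1)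

/-- **QL2-IA**: the sum over all nonprincipal characters is smaller than the main term, at
`δ = a log log r / log r`, `k ≥ C log r` -/
def IA2Stmt : Prop := ∃ a₀ : ℝ, 0 < a₀ ∧ ∀ a : ℝ, 0 < a → a ≤ a₀ → ∃ (C : ℝ) (r₀ : ℕ), 1 ≤ C ∧
  ∀ r : ℕ, r.Prime → r₀ ≤ r → ∀ k : ℕ, C * LL r ≤ k →
    ∀ S : Finset (DirichletCharacter ℂ r), (∀ χ ∈ S, χ ≠ 1) →
      ∑ χ ∈ S, ‖Schi χ k (a * lam r / LL r)‖ ≤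
        (a * lam r / LL r) ^ (-((k : ℝ) + 1)) * (1 - (r : ℝ) ^ (-C))

/-- **QL2-Q** (compare `QLStmt` in Ev/Spec.lean) -/
def QL2Stmt : Prop := ∀ η : ℝ, 0 < η → ∃ C : ℝ, 0 < C ∧ ∀ r : ℕ, r.Prime → ∀ U : ℝ,
  C * LL r ^ 2 / lam r ≤ U → ∃ y : ℕ, Real.exp (U / 8) ≤ y ∧ (y : ℝ) ≤ Real.exp (7 * U) ∧
    (y : ℝ) ^ (1 - η) ≤ ((Finset.Ioc y (2 * y)).filter fun l => l.Prime ∧ l % r = 1).card

/-- **QL2-NR** (compare `NRStmt` in Ev/Spec.lean) -/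
def NR2Stmt : Prop := ∀ ε : ℝ, 0 < ε → ∃ (C : ℕ) (E : Set ℕ),
  (∀ X : ℕ, ((E ∩ Set.Iic X).ncard : ℝ) ≤ C * (X : ℝ) ^ (1 / 2 + ε)) ∧
  ∀ p : ℕ, p.Prime → p ∉ E → ∀ r : ℕ, r.Prime → ∀ N : ℕ, (r ^ scE r * Nat.size p) ^ C ≤ N →
    p ≤ N ∨ ∃ l < N, l.Prime ∧ l % r = 1 ∧ p % l ≠ 0 ∧ p ^ ((l - 1) / r) % l ≠ 1

end Vale.Agent.P319.SC.QL
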